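import Mathlib

/-!
Every arithmetic progression of distinct terms in the first row of a circulant Hadamard matrix has
small discrepancy; in particular the first row has no long constant run.
-/

open Finset

namespace Vale.Agent.Results.P033.A_progression_discrepancy

/-- an integer function with increments at most two moves at most twice the distance -/
lemma lip_aux (f : ℤ → ℤ) (hf : ∀ r, |f (r + 1) - f r| ≤ 2) (r : ℤ) :
    |f r - f 0| ≤ 2 * |r| := by
  induction r using Int.induction_on with
  | zero => simp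
  | succ i ih =>
    have h1 := hf (i : ℤ)
    have h2 : f ((i : ℤ) + 1) - f 0 = (f ((i : ℤ) + 1) - f i) + (f i - f 0) := by ring
    rw [h2]
    refine (abs_add_le _ _).trans ?_
    rw [abs_of_nonneg (by positivity : (0 : ℤ) ≤ (i : ℤ) + 1)]
    rw [abs_of_nonneg (by positivity : (0 : ℤ) ≤ (i : ℤ))] at ih
    linarith
  | pred i ih =>
    have h1 := hf (-(i : ℤ) - 1)
    have e : -(i : ℤ) - 1 + 1 = -(i : ℤ) := by ring
    rw [e] at h1
    have h2 : f (-(i : ℤ) - 1) - f 0 = -(f (-(i : ℤ)) - f (-(i : ℤ) - 1)) + (f (-(i : ℤ)) - f 0) := by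
      ring
    rw [h2]
    refine (abs_add_le _ _).trans ?_
    rw [abs_neg]
    have e1 : |-(i : ℤ)| = i := by
      rw [abs_neg]
      exact abs_of_nonneg (by positivity)
    have e2 : |-(i : ℤ) - 1| = i + 1 := by
      rw [show -(i : ℤ) - 1 = -((i : ℤ) + 1) by ring, abs_neg]
      exact abs_of_nonneg (by positivity)
    rw [e1] at ih
    rw [e2]
    linarith

/-- the sum of squares over the window of shifts -/
lemma window_sum (D : ℤ) (q : ℕ) :
    3 * ∑ r ∈ Finset.Icc (-(q : ℤ)) q, (D - 2 * |r|) ^ 2 =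
      3 * D ^ 2 * (2 * q + 1) - 12 * D * q * (q + 1) + 4 * q * (q + 1) * (2 * q + 1) := by
  induction q with
  | zero => simp
  | succ q ih =>
    have hI : Finset.Icc (-((q + 1 : ℕ) : ℤ)) ((q + 1 : ℕ) : ℤ) =
        insert (((q : ℤ) + 1)) (insert (-((q : ℤ) + 1)) (Finset.Icc (-(q : ℤ)) q)) := by
      ext r
      simp only [Finset.mem_Icc, Finset.mem_insert]
      push_cast
      omega
    have h1 : -((q : ℤ) + 1) ∉ Finset.Icc (-(q : ℤ)) q := by
      simp only [Finset.mem_Icc]
      omega
    have h2 : ((q : ℤ) + 1) ∉ insert (-((q : ℤ) + 1)) (Finset.Icc (-(q : ℤ)) q) := by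
      simp only [Finset.mem_insert, Finset.mem_Icc]
      omega
    rw [hI, Finset.sum_insert h2, Finset.sum_insert h1, mul_add, mul_add, ih]
    have e1 : |(q : ℤ) + 1| = q + 1 := abs_of_nonneg (by positivity)
    have e2 : |-((q : ℤ) + 1)| = q + 1 := by
      rw [abs_neg]
      exact e1
    rw [e1, e2]
    push_cast
    ring

section
variable {n : ℕ} [NeZero n]

/-- Parseval for the circulant matrix -/
lemma parseval (h : ZMod n → ℤ) (hs : ∀ j, h j = 1 ∨ h j = -1)
    (hP : ∀ t : ZMod n, t ≠ 0 → ∑ j, h j * h (j + t) = 0) {m : ℕ} (x : ℕ → ZMod n)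
    (hx : ∀ i < m, ∀ i' < m, x i = x i' → i = i') :
    ∑ t : ZMod n, (∑ i ∈ range m, h (x i + t)) ^ 2 = n * m := by
  have hsq : ∀ j, h j * h j = 1 := fun j => by
    rcases hs j with e | e <;> simp [e]
  have hpair : ∀ i ∈ range m, ∀ i' ∈ range m,
      ∑ t : ZMod n, h (x i + t) * h (x i' + t) = if i = i' then (n : ℤ) else 0 := by
    intro i hi i' hi'
    have hi1 := Finset.mem_range.1 hi
    have hi2 := Finset.mem_range.1 hi'
    have hre : ∑ t : ZMod n, h (x i + t) * h (x i' + t) =
        ∑ j : ZMod n, h j * h (j + (x i' - x i)) := by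
      refine Fintype.sum_equiv (Equiv.addLeft (x i)) _ _ fun t => ?_
      simp only [Equiv.coe_addLeft]
      congr 2
      ring
    rw [hre]
    split_ifs with hii
    · subst hii
      simp only [sub_self, add_zero, hsq, Finset.sum_const, Finset.card_univ, ZMod.card]
      simp
    · refine hP _ fun h0 => hii ?_
      exact hx i hi1 i' hi2 (sub_eq_zero.1 h0).symm
  calc ∑ t : ZMod n, (∑ i ∈ range m, h (x i + t)) ^ 2
      = ∑ t : ZMod n, ∑ i ∈ range m, ∑ i' ∈ range m, h (x i + t) * h (x i' + t) := by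
        refine Finset.sum_congr rfl fun t _ => ?_
        rw [sq, Finset.sum_mul_sum]
    _ = ∑ i ∈ range m, ∑ i' ∈ range m, ∑ t : ZMod n, h (x i + t) * h (x i' + t) := by
        rw [Finset.sum_comm]
        refine Finset.sum_congr rfl fun i _ => ?_
        rw [Finset.sum_comm]
    _ = ∑ i ∈ range m, ∑ i' ∈ range m, (if i = i' then (n : ℤ) else 0) := by
        refine Finset.sum_congr rfl fun i hi => Finset.sum_congr rfl fun i' hi' => hpair i hi i' hi'
    _ = n * m := by
        have : ∀ i ∈ range m, ∑ i' ∈ range m, (if i = i' then (n : ℤ) else 0) = n := by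
          intro i hi
          rw [Finset.sum_ite_eq, if_pos hi]
        rw [Finset.sum_congr rfl this, Finset.sum_const, Finset.card_range]
        simp [mul_comm]

/-- the discrepancy bound -/
theorem discrepancy (h : ZMod n → ℤ) (hs : ∀ j, h j = 1 ∨ h j = -1)
    (hP : ∀ t : ZMod n, t ≠ 0 → ∑ j, h j * h (j + t) = 0) (a d : ZMod n) (m : ℕ)
    (hd : ∀ i < m, ∀ i' < m, a + (i : ZMod n) * d = a + (i' : ZMod n) * d → i = i') :
    |∑ i ∈ range m, h (a + (i : ZMod n) * d)| *
        (|∑ i ∈ range m, h (a + (i : ZMod n) * d)| ^ 2 + 2) ≤ 3 * n * m := by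
  set S₀ : ℤ := ∑ i ∈ range m, h (a + (i : ZMod n) * d) with hS₀
  have habs : ∀ j, |h j| ≤ 1 := fun j => by
    rcases hs j with e | e <;> simp [e]
  have hDm : |S₀| ≤ m := by
    calc |S₀| ≤ ∑ i ∈ range m, |h (a + (i : ZMod n) * d)| := Finset.abs_sum_le_sum_abs _ _
      _ ≤ ∑ _i ∈ range m, (1 : ℤ) := Finset.sum_le_sum fun i _ => habs _
      _ = m := by simp
  -- the shifted sums
  set f : ℤ → ℤ := fun r => ∑ i ∈ range m, h (a + (i : ZMod n) * d + (r : ZMod n) * d) with hf
  have hf0 : f 0 = S₀ := by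
    simp [hf, hS₀]
  have hstep : ∀ r, |f (r + 1) - f r| ≤ 2 := by
    intro r
    have e : f (r + 1) - f r = h (a + (m : ZMod n) * d + (r : ZMod n) * d) - h (a + (r : ZMod n) * d) := by
      have hG := Finset.sum_range_sub (fun i : ℕ => h (a + (i : ZMod n) * d + (r : ZMod n) * d)) m
      simp only [hf]
      rw [← Finset.sum_sub_distrib]
      have e1 : ∀ i ∈ range m, h (a + (i : ZMod n) * d + ((r + 1 : ℤ) : ZMod n) * d) -
          h (a + (i : ZMod n) * d + (r : ZMod n) * d) =
          h (a + ((i + 1 : ℕ) : ZMod n) * d + (r : ZMod n) * d) -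
            h (a + (i : ZMod n) * d + (r : ZMod n) * d) := by
        intro i _
        congr 2
        push_cast
        ring
      rw [Finset.sum_congr rfl e1, hG]
      congr 2
      push_cast
      ring
    rw [e]
    refine (abs_sub _ _).trans ?_
    have h1 := habs (a + (m : ZMod n) * d + (r : ZMod n) * d)
    have h2 := habs (a + (r : ZMod n) * d)
    linarith
  have hlip := lip_aux f hstep
  -- Parseval
  have hPar := parseval h hs hP (m := m) (fun i => a + (i : ZMod n) * d) hd
  set F : ZMod n → ℤ := fun t => (∑ i ∈ range m, h (a + (i : ZMod n) * d + t)) ^ 2 with hF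
  have hFnn : ∀ t, 0 ≤ F t := fun t => sq_nonneg _
  obtain ⟨D, hD⟩ := Int.eq_ofNat_of_zero_le (abs_nonneg S₀)
  rw [hD]
  rw [hD] at hDm
  rcases Nat.eq_zero_or_pos D with h0 | hpos
  · subst h0
    simp
    positivity
  · obtain ⟨q, hq⟩ : ∃ q : ℕ, D = 2 * q + 1 ∨ D = 2 * q + 2 := ⟨(D - 1) / 2, by omega⟩
    have hq' : (2 * q : ℤ) + 1 ≤ D := by
      rcases hq with e | e <;> rw [e] <;> push_cast <;> linarith
    -- injectivity of the shifts
    have hinj : Set.InjOn (fun r : ℤ => (r : ZMod n) * d)
        (Finset.Icc (-(q : ℤ)) q : Finset ℤ) := by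
      have key : ∀ r r' : ℤ, r ∈ Finset.Icc (-(q : ℤ)) q → r' ∈ Finset.Icc (-(q : ℤ)) q → r < r' →
          (r : ZMod n) * d ≠ (r' : ZMod n) * d := by
        intro r r' hr hr' hlt heq
        have hr1 := Finset.mem_Icc.1 hr
        have hr2 := Finset.mem_Icc.1 hr'
        obtain ⟨k, hk⟩ := Int.eq_ofNat_of_zero_le (show 0 ≤ r' - r by omega)
        have hk1 : 0 < k := by omega
        have hk2 : k < m := by
          have : (k : ℤ) < m := by
            have : (D : ℤ) ≤ m := hDm
            omega
          exact_mod_cast this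
        have hm0 : 0 < m := by omega
        have e : a + ((0 : ℕ) : ZMod n) * d = a + (k : ZMod n) * d := by
          have e1 : (k : ZMod n) = (r' : ZMod n) - (r : ZMod n) := by
            have : ((r' - r : ℤ) : ZMod n) = ((k : ℤ) : ZMod n) := by rw [hk]
            push_cast at this
            exact this.symm
          rw [e1, sub_mul, ← heq]
          simp
        have := hd 0 hm0 k hk2 e
        omega
      intro r hr r' hr' he
      rcases lt_trichotomy r r' with hl | hl | hl
      · exact absurd he (key r r' hr hr' hl)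
      · exact hl
      · exact absurd he.symm (key r' r hr' hr hl)
    have hlow : ∑ r ∈ Finset.Icc (-(q : ℤ)) q, ((D : ℤ) - 2 * |r|) ^ 2 ≤ ∑ t : ZMod n, F t := by
      calc ∑ r ∈ Finset.Icc (-(q : ℤ)) q, ((D : ℤ) - 2 * |r|) ^ 2
          ≤ ∑ r ∈ Finset.Icc (-(q : ℤ)) q, F ((r : ZMod n) * d) := by
            refine Finset.sum_le_sum fun r hr => ?_
            have hr1 := Finset.mem_Icc.1 hr
            have h1 := hlip r
            have h2 : (D : ℤ) ≤ |f r| + 2 * |r| := by
              have h3 : |f 0| ≤ |f r| + |f r - f 0| := by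
                have : f 0 = f r - (f r - f 0) := by ring
                calc |f 0| = |f r - (f r - f 0)| := by rw [← this]
                  _ ≤ |f r| + |f r - f 0| := abs_sub _ _
              rw [hf0] at h1 h3
              rw [hD] at h3
              linarith
            have h4 : 0 ≤ (D : ℤ) - 2 * |r| := by
              have : |r| ≤ q := abs_le.2 hr1
              linarith
            have h5 : F ((r : ZMod n) * d) = f r ^ 2 := rfl
            rw [h5, ← sq_abs (f r)]
            exact pow_le_pow_left₀ h4 (by linarith) 2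
        _ = ∑ t ∈ (Finset.Icc (-(q : ℤ)) q).image (fun r : ℤ => (r : ZMod n) * d), F t := by
            rw [Finset.sum_image hinj]
        _ ≤ ∑ t : ZMod n, F t :=
            Finset.sum_le_sum_of_subset_of_nonneg (Finset.subset_univ _) fun t _ _ => hFnn t
    have hW := window_sum (D : ℤ) q
    have hPar' : ∑ t : ZMod n, F t = n * m := hPar
    rw [hPar'] at hlow
    have hfinal : (D : ℤ) * ((D : ℤ) ^ 2 + 2) =
        3 * (D : ℤ) ^ 2 * (2 * q + 1) - 12 * (D : ℤ) * q * (q + 1) + 4 * q * (q + 1) * (2 * q + 1) := by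
      rcases hq with e | e <;> rw [e] <;> push_cast <;> ring
    rw [hfinal, ← hW]
    linarith

end

/-- In a real circulant Hadamard matrix of order `n`, with first row `h`, every arithmetic progression
of `m` distinct terms has discrepancy `D = |∑ h|` with `D (D² + 2) ≤ 3 n m`. In particular a
progression on which `h` is constant (for instance a run of equal signs) has `m² + 2 ≤ 3 n`. -/
theorem result (n : ℕ) [NeZero n] (h : ZMod n → ℤ) (hs : ∀ j, h j = 1 ∨ h j = -1)
    (hP : ∀ t : ZMod n, t ≠ 0 → ∑ j, h j * h (j + t) = 0) (a d : ZMod n) (m : ℕ)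
    (hd : ∀ i < m, ∀ i' < m, a + (i : ZMod n) * d = a + (i' : ZMod n) * d → i = i') :
    |∑ i ∈ range m, h (a + (i : ZMod n) * d)| *
        (|∑ i ∈ range m, h (a + (i : ZMod n) * d)| ^ 2 + 2) ≤ 3 * n * m ∧
      (0 < m → (∀ i < m, h (a + (i : ZMod n) * d) = h a) → (m : ℤ) ^ 2 + 2 ≤ 3 * n) := by
  have hD := discrepancy h hs hP a d m hd
  refine ⟨hD, fun hm hc => ?_⟩
  have hsum : ∑ i ∈ range m, h (a + (i : ZMod n) * d) = m * h a := by
    rw [Finset.sum_congr rfl fun i hi => hc i (Finset.mem_range.1 hi)]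
    simp
  have habs : |∑ i ∈ range m, h (a + (i : ZMod n) * d)| = m := by
    rw [hsum, abs_mul]
    have : |h a| = 1 := by
      rcases hs a with e | e <;> simp [e]
    rw [this, mul_one]
    exact abs_of_nonneg (by positivity)
  rw [habs] at hD
  have hm' : (0 : ℤ) < m := by exact_mod_cast hm
  have : (m : ℤ) * ((m : ℤ) ^ 2 + 2) ≤ (m : ℤ) * (3 * n) := by
    calc _ ≤ 3 * (n : ℤ) * m := hD
      _ = _ := by ring
  exact le_of_mul_le_mul_left this hm'

end Vale.Agent.Results.P033.A_progression_discrepancy
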